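import Vale.Agent.P343.Auto

open Vale.Agent.P343

theorem Vale.Agent.Results.P343.SakodaSipser.result :
    (¬ ∃ p : Polynomial ℝ, ∀ (A Q : Type) [Fintype A] [Fintype Q] (M : TwoNFA A Q),
      ∃ (Q' : Type) (_ : Fintype Q') (D : TwoNFA A Q'),
        D.IsDet ∧ (Fintype.card Q' : ℝ) ≤ p.eval (Fintype.card Q : ℝ) ∧
        ∀ w : List A, D.Accepts w ↔ M.Accepts w) ∧
    (¬ ∃ p : Polynomial ℝ, ∀ (A Q : Type) [Fintype A] [Fintype Q] (M : TwoNFA A Q),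
      M.IsOneWay → ∃ (Q' : Type) (_ : Fintype Q') (D : TwoNFA A Q'),
        D.IsDet ∧ (Fintype.card Q' : ℝ) ≤ p.eval (Fintype.card Q : ℝ) ∧
        ∀ w : List A, D.Accepts w ↔ M.Accepts w) :=
  ⟨fun ⟨p, hp⟩ => no_poly_oneWay ⟨p, fun A Q _ _ M _ => hp A Q M⟩, no_poly_oneWay⟩
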